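import Mathlib.Analysis.SpecialFunctions.Exp
import Mathlib.Analysis.SpecificLimits.Basic
import Mathlib.Algebra.BigOperators.Pi
import Mathlib.Algebra.BigOperators.Field
import Mathlib.Data.Finsupp.Basic
import Mathlib.Algebra.BigOperators.Finsupp.Basic

/-!
# P241: growth of the number of cells of the skeleta of `MU`

* `wt f = ∑ (i + 1) f i` for `f : ℕ →₀ ℕ` (the weight of a monomial in `b_1, b_2, ...`).
* `card_mul_pow_le` : a finite set of monomials of weight at most `n` has at most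
  `C x ^ (-n)` elements, for every `0 < x < 1`.
* `exists_slow` : if `b` is positive, monotone and subexponential, then for all `c`, `K` there are
  arbitrarily large `D` with `K * (b (D + c) - b D) + 1 ≤ b D`.
* `nW n` : the number of monomials of weight at most `n`; `exists_slow_nW`, `exists_slow_nW_half`.
-/

open Finset

namespace Vale.Agent.P241.H169

section Abstract

/-- `b` grows slower than every exponential. -/
def Subexp (b : ℕ → ℕ) : Prop :=
  ∀ x : ℝ, 0 < x → x < 1 → ∃ C : ℝ, ∀ n, (b n : ℝ) * x ^ n ≤ C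

theorem exists_slow {b : ℕ → ℕ} (hpos : ∀ n, 1 ≤ b n) (hb : Subexp b) (c K D₀ : ℕ) :
    ∃ D, D₀ ≤ D ∧ K * (b (D + c) - b D) + 1 ≤ b D := by
  by_contra hcon
  push Not at hcon
  have hc : c ≠ 0 := by
    rintro rfl
    have := hcon D₀ le_rfl
    simp only [add_zero, Nat.sub_self, mul_zero, zero_add] at this
    have := hpos D₀
    omega
  have hK : K ≠ 0 := by
    rintro rfl
    have := hcon D₀ le_rfl
    simp only [zero_mul, zero_add] at this
    have := hpos D₀
    omega
  -- the growth factor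
  set q : ℝ := 1 + 1 / K with hq
  have hK0 : (0 : ℝ) < K := by exact_mod_cast Nat.pos_of_ne_zero hK
  have hc0 : (0 : ℝ) < c := by exact_mod_cast Nat.pos_of_ne_zero hc
  have hq1 : 1 < q := by
    have : 0 < 1 / (K : ℝ) := by positivity
    linarith
  have hstep : ∀ D, D₀ ≤ D → q * b D ≤ b (D + c) := by
    intro D hD
    have h1 : b D ≤ K * (b (D + c) - b D) := by
      have := hcon D hD
      omega
    have h2 : b D ≤ b (D + c) := by
      by_contra hlt
      have h3 : b (D + c) - b D = 0 := by omega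
      rw [h3, mul_zero] at h1
      have := hpos D
      omega
    have h3 : (b D : ℝ) ≤ K * ((b (D + c) : ℝ) - b D) := by
      have := (Nat.cast_le (α := ℝ)).2 h1
      rwa [Nat.cast_mul, Nat.cast_sub h2] at this
    have h4 : (b D : ℝ) / K ≤ (b (D + c) : ℝ) - b D := by
      rw [div_le_iff₀ hK0]
      linarith
    rw [hq]
    have : (1 + 1 / (K : ℝ)) * b D = b D + b D / K := by ring
    rw [this]
    linarith
  have hiter : ∀ j : ℕ, q ^ j ≤ b (D₀ + j * c) := by
    intro j
    induction j with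
    | zero =>
      have : (1 : ℝ) ≤ b D₀ := by exact_mod_cast hpos D₀
      simpa using this
    | succ j ih =>
      have h1 := hstep (D₀ + j * c) (Nat.le_add_right _ _)
      have h2 : D₀ + (j + 1) * c = D₀ + j * c + c := by ring
      rw [h2, pow_succ']
      exact (mul_le_mul_of_nonneg_left ih (by linarith)).trans h1
  -- the choice of `x`
  set η : ℝ := 1 / (2 * c * (K + 1)) with hη
  have hη0 : 0 < η := by positivity
  have hcη : c * η = 1 / (2 * (K + 1)) := by
    rw [hη]
    field_simp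
  have hη1 : η < 1 := by
    have h1 : (1 : ℝ) ≤ c := by exact_mod_cast Nat.one_le_iff_ne_zero.2 hc
    rw [hη, div_lt_one (by positivity)]
    nlinarith
  set x : ℝ := 1 - η with hx
  have hx0 : 0 < x := by linarith
  have hx1 : x < 1 := by linarith
  have hbern : 1 - c * η ≤ x ^ c := by
    have := one_add_mul_le_pow (a := -η) (by linarith) c
    have h2 : 1 + -η = x := by rw [hx]; ring
    rw [h2] at this
    linarith
  have hqx : 1 < q * x ^ c := by
    have h1 : 1 < q * (1 - c * η) := by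
      rw [hcη, hq]
      have : (1 + 1 / (K : ℝ)) * (1 - 1 / (2 * (K + 1))) = 1 + 1 / (2 * K) := by
        field_simp
        ring
      rw [this]
      have : 0 < 1 / (2 * (K : ℝ)) := by positivity
      linarith
    exact h1.trans_le (mul_le_mul_of_nonneg_left hbern (by linarith))
  obtain ⟨C, hC⟩ := hb x hx0 hx1
  obtain ⟨j, hj⟩ := pow_unbounded_of_one_lt (C / x ^ D₀) hqx
  have h1 := hC (D₀ + j * c)
  have h2 : (q * x ^ c) ^ j * x ^ D₀ ≤ b (D₀ + j * c) * x ^ (D₀ + j * c) := by
    have : (q * x ^ c) ^ j * x ^ D₀ = q ^ j * x ^ (D₀ + j * c) := by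
      rw [mul_pow, pow_add, ← pow_mul, mul_comm c j]
      ring
    rw [this]
    exact mul_le_mul_of_nonneg_right (hiter j) (by positivity)
  rw [div_lt_iff₀ (by positivity)] at hj
  linarith

/-- half the index: still subexponential -/
theorem Subexp.half {b : ℕ → ℕ} (hb : Subexp b) : Subexp fun n => b (n / 2) := by
  intro x hx0 hx1
  obtain ⟨C, hC⟩ := hb x hx0 hx1
  refine ⟨C, fun n => (mul_le_mul_of_nonneg_left ?_ (Nat.cast_nonneg _)).trans (hC (n / 2))⟩
  exact pow_le_pow_of_le_one hx0.le hx1.le (Nat.div_le_self n 2)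

end Abstract

section Weights

/-- the weight of a monomial in the variables `b_1, b_2, ...` (`b_{i+1}` has weight `i + 1`) -/
def wt (f : ℕ →₀ ℕ) : ℕ := f.sum fun i k => (i + 1) * k

theorem wt_eq_sum {f : ℕ →₀ ℕ} {N : ℕ} (h : f.support ⊆ range N) :
    wt f = ∑ i : Fin N, ((i : ℕ) + 1) * f i := by
  rw [wt, Finsupp.sum_of_support_subset f h _ (by simp), Finset.sum_range]

theorem geom_le {y : ℝ} (h0 : 0 ≤ y) (h1 : y < 1) (M : ℕ) :
    ∑ k ∈ range M, y ^ k ≤ 1 / (1 - y) := by
  rw [le_div_iff₀ (by linarith), geom_sum_mul_neg]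
  have : 0 ≤ y ^ M := by positivity
  linarith

theorem prod_geom_le {x : ℝ} (h0 : 0 < x) (h1 : x < 1) (N M : ℕ) :
    ∏ i : Fin N, ∑ k ∈ range M, (x ^ ((i : ℕ) + 1)) ^ k ≤ Real.exp (1 / (1 - x) ^ 2) := by
  have h2 : ∀ i : Fin N, ∑ k ∈ range M, (x ^ ((i : ℕ) + 1)) ^ k ≤
      Real.exp (x ^ (i : ℕ) / (1 - x)) := by
    intro i
    have hy0 : 0 ≤ x ^ ((i : ℕ) + 1) := by positivity
    have hyx : x ^ ((i : ℕ) + 1) ≤ x := by
      rw [pow_succ]
      exact mul_le_of_le_one_left h0.le (pow_le_one₀ h0.le h1.le)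
    have hy1 : x ^ ((i : ℕ) + 1) < 1 := hyx.trans_lt h1
    refine (geom_le hy0 hy1 M).trans ?_
    have h3 : 1 / (1 - x ^ ((i : ℕ) + 1)) =
        x ^ ((i : ℕ) + 1) / (1 - x ^ ((i : ℕ) + 1)) + 1 := by
      have : 1 - x ^ ((i : ℕ) + 1) ≠ 0 := by linarith
      field_simp
      ring
    rw [h3]
    refine (Real.add_one_le_exp _).trans (Real.exp_le_exp.2 ?_)
    refine div_le_div₀ (by positivity) ?_ (by linarith) (by linarith)
    exact pow_le_pow_of_le_one h0.le h1.le (Nat.le_succ _)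
  refine (Finset.prod_le_prod (fun i _ => Finset.sum_nonneg fun k _ => by positivity)
    fun i _ => h2 i).trans ?_
  rw [← Real.exp_sum, Real.exp_le_exp, ← Finset.sum_div, Fin.sum_univ_eq_sum_range (fun i => x ^ i),
    sq, ← div_div]
  exact div_le_div_of_nonneg_right (geom_le h0.le h1 N) (by linarith)

theorem sum_pow_wt_le {x : ℝ} (h0 : 0 < x) (h1 : x < 1) (S : Finset (ℕ →₀ ℕ)) :
    ∑ f ∈ S, x ^ wt f ≤ Real.exp (1 / (1 - x) ^ 2) := by
  classical
  -- bounds for the supports and the values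
  obtain ⟨N, hN⟩ : ∃ N, ∀ f ∈ S, f.support ⊆ range N := by
    refine ⟨(S.biUnion fun f => f.support).sup id + 1, fun f hf i hi => ?_⟩
    rw [mem_range, Nat.lt_succ_iff]
    exact Finset.le_sup (f := id) (mem_biUnion.2 ⟨f, hf, hi⟩)
  obtain ⟨M, hM⟩ : ∃ M, ∀ f ∈ S, ∀ i, f i < M := by
    refine ⟨(S.biUnion fun f => f.support.image f).sup id + 1, fun f hf i => ?_⟩
    by_cases hi : f i = 0
    · omega
    · rw [Nat.lt_succ_iff]
      exact Finset.le_sup (f := id) (mem_biUnion.2 ⟨f, hf, mem_image.2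
        ⟨i, Finsupp.mem_support_iff.2 hi, rfl⟩⟩)
  refine le_trans ?_ (prod_geom_le h0 h1 N M)
  rw [Finset.prod_univ_sum]
  have hinj : Set.InjOn (fun (f : ℕ →₀ ℕ) (i : Fin N) => f i) S := by
    intro f hf g hg hfg
    ext i
    by_cases hi : i < N
    · exact congrFun hfg ⟨i, hi⟩
    · have h3 : ∀ g ∈ S, g i = 0 := by
        intro g hg
        by_contra h
        exact hi (mem_range.1 (hN g hg (Finsupp.mem_support_iff.2 h)))
      rw [h3 f hf, h3 g hg]
  have h4 : ∑ f ∈ S, x ^ wt f =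
      ∑ g ∈ S.image (fun (f : ℕ →₀ ℕ) (i : Fin N) => f i), ∏ i : Fin N, (x ^ ((i : ℕ) + 1)) ^ g i := by
    rw [Finset.sum_image hinj]
    refine Finset.sum_congr rfl fun f hf => ?_
    rw [wt_eq_sum (hN f hf), ← Finset.prod_pow_eq_pow_sum]
    exact Finset.prod_congr rfl fun i _ => by rw [pow_mul]
  rw [h4]
  refine Finset.sum_le_sum_of_subset_of_nonneg ?_ fun g _ _ =>
    Finset.prod_nonneg fun i _ => by positivity
  intro g hg
  obtain ⟨f, hf, rfl⟩ := mem_image.1 hg
  exact Fintype.mem_piFinset.2 fun i => mem_range.2 (hM f hf i)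

/-- **Count.** A finite set of monomials of weight at most `n` has at most `C x⁻ⁿ` elements. -/
theorem card_mul_pow_le {x : ℝ} (h0 : 0 < x) (h1 : x < 1) (S : Finset (ℕ →₀ ℕ)) (n : ℕ)
    (hS : ∀ f ∈ S, wt f ≤ n) : (S.card : ℝ) * x ^ n ≤ Real.exp (1 / (1 - x) ^ 2) := by
  refine le_trans ?_ (sum_pow_wt_le h0 h1 S)
  rw [← nsmul_eq_mul]
  exact Finset.card_nsmul_le_sum _ _ _ fun f hf => pow_le_pow_of_le_one h0.le h1.le (hS f hf)

/-- monomials of weight at most `n` form a finite set -/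
theorem finite_wt_le (n : ℕ) : {f : ℕ →₀ ℕ | wt f ≤ n}.Finite := by
  classical
  have hle : ∀ f : ℕ →₀ ℕ, ∀ i, (i + 1) * f i ≤ wt f := by
    intro f i
    by_cases hi : f i = 0
    · simp [hi]
    · exact Finset.single_le_sum (f := fun i => (i + 1) * f i) (fun _ _ => Nat.zero_le _)
        (Finsupp.mem_support_iff.2 hi)
  let F : (Fin n → Fin (n + 1)) → (ℕ →₀ ℕ) := fun g =>
    Finsupp.onFinset (range n) (fun i => if h : i < n then (g ⟨i, h⟩ : ℕ) else 0) (by
      intro i hi
      by_contra h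
      rw [mem_range] at h
      exact hi (dif_neg h))
  refine (Set.finite_range F).subset ?_
  intro f hf
  have hf' : wt f ≤ n := hf
  refine ⟨fun i => ⟨f i, ?_⟩, ?_⟩
  · have h1 := hle f i
    have h2 : f (i : ℕ) ≤ ((i : ℕ) + 1) * f i := Nat.le_mul_of_pos_left _ (Nat.succ_pos _)
    omega
  · ext i
    simp only [F, Finsupp.onFinset_apply]
    split_ifs with h
    · rfl
    · have h1 := hle f i
      by_contra h0
      have h2 : 1 ≤ f i := Nat.one_le_iff_ne_zero.2 fun h => h0 (by rw [h])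
      have h3 : (i + 1) * 1 ≤ (i + 1) * f i := Nat.mul_le_mul_left _ h2
      omega

/-- the number of monomials of weight at most `n` -/
noncomputable def nW (n : ℕ) : ℕ := (finite_wt_le n).toFinset.card

theorem nW_eq_ncard (n : ℕ) : nW n = {f : ℕ →₀ ℕ | wt f ≤ n}.ncard := by
  rw [nW, Set.ncard_eq_toFinset_card _ (finite_wt_le n)]

theorem nW_mono : Monotone nW := by
  intro a b hab
  refine Finset.card_le_card fun f hf => ?_
  simp only [Set.Finite.mem_toFinset, Set.mem_setOf_eq] at hf ⊢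
  exact hf.trans hab

theorem one_le_nW (n : ℕ) : 1 ≤ nW n := by
  refine Finset.card_pos.2 ⟨0, ?_⟩
  simp [wt]

theorem subexp_nW : Subexp nW := by
  intro x h0 h1
  refine ⟨Real.exp (1 / (1 - x) ^ 2), fun n => ?_⟩
  refine card_mul_pow_le h0 h1 _ n fun f hf => ?_
  simpa using hf

/-- anything bounded by the number of monomials is subexponential -/
theorem subexp_of_le {b : ℕ → ℕ} (h : ∀ n, b n ≤ nW n) : Subexp b := by
  intro x h0 h1
  obtain ⟨C, hC⟩ := subexp_nW x h0 h1
  refine ⟨C, fun n => (mul_le_mul_of_nonneg_right ?_ (by positivity)).trans (hC n)⟩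
  exact_mod_cast h n

theorem exists_slow_nW (c K D₀ : ℕ) : ∃ D, D₀ ≤ D ∧ K * (nW (D + c) - nW D) + 1 ≤ nW D :=
  exists_slow one_le_nW subexp_nW c K D₀

theorem exists_slow_nW_half (c K D₀ : ℕ) :
    ∃ D, D₀ ≤ D ∧ K * (nW ((D + c) / 2) - nW (D / 2)) + 1 ≤ nW (D / 2) :=
  exists_slow (b := fun n => nW (n / 2)) (fun n => one_le_nW _) subexp_nW.half c K D₀

end Weights

end Vale.Agent.P241.H169
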