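import Vale.Agent.P241.H169.Tow
import Vale.Agent.P241.H963.Fil

/-!
# P241, block YK: the swap lemma for the split stages of a tower

For distinguished triangles `Ea' ⟶ Ea ⟶ Sa ⟶`, `Eb' ⟶ Eb ⟶ Sb ⟶` and lifts `ya : Sa ⟶ K ⊗ Ea`,
`yb : Sb ⟶ K ⊗ Eb` of the units, `ya · yb` followed by the braiding is `β ≫ yb · ya` up to maps
through `Eb ⊗ Ea'` and `Eb' ⊗ Ea`. Hence the split stages of a tower form a set of `Letters`.
-/

open CategoryTheory MonoidalCategory Limits Pretriangulated MonObj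
open Vale.Agent.P251.T Vale.Agent.P251.M Vale.Agent.P241.YK

universe v u

set_option linter.unusedSectionVars false

namespace Vale.Agent.P241.H169

variable {T : Type u} [Category.{v} T] [Preadditive T] [HasZeroObject T]
    [HasShift T ℤ] [∀ n : ℤ, (shiftFunctor T n).Additive] [Pretriangulated T]
    [MonoidalCategory T] [SymmetricCategory T] [TensorTriangulated T]

section exact

variable {E' E S : T} {f : E' ⟶ E} {g : E ⟶ S} {h : S ⟶ E'⟦(1 : ℤ)⟧}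
  (D : Triangle.mk f g h ∈ distTriang T)

include D in
/-- exactness of `Hom(A, K ⊗ -)` -/
theorem lift_K (K : T) {A : T} (u : A ⟶ K ⊗ E) (hu : u ≫ K ◁ g = 0) :
    ∃ v : A ⟶ K ⊗ E', v ≫ K ◁ f = u := by
  obtain ⟨v, hv⟩ := Triangle.coyoneda_exact₂ _ (TensorTriangulated.distinguished K _ D) u hu
  exact ⟨v, hv.symm⟩

include D in
/-- exactness of `Hom(A, K ⊗ (X ⊗ -))` -/
theorem lift_left (K X : T) {A : T} (u : A ⟶ K ⊗ (X ⊗ E)) (hu : u ≫ K ◁ (X ◁ g) = 0) :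
    ∃ v : A ⟶ K ⊗ (X ⊗ E'), v ≫ K ◁ (X ◁ f) = u :=
  lift_K (TensorTriangulated.distinguished X _ D) K u hu

include D in
/-- exactness of `Hom(A, K ⊗ (- ⊗ X))` -/
theorem lift_right (K X : T) {A : T} (u : A ⟶ K ⊗ (E ⊗ X)) (hu : u ≫ K ◁ (g ▷ X) = 0) :
    ∃ v : A ⟶ K ⊗ (E' ⊗ X), v ≫ K ◁ (f ▷ X) = u := by
  obtain ⟨v, hv⟩ := lift_left D K X (u ≫ K ◁ (β_ E X).hom) (by
    rw [Category.assoc, ← MonoidalCategory.whiskerLeft_comp, ← BraidedCategory.braiding_naturality_left,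
      MonoidalCategory.whiskerLeft_comp, reassoc_of% hu, zero_comp])
  refine ⟨v ≫ K ◁ (β_ E' X).inv, ?_⟩
  have h1 : (β_ E' X).inv ≫ f ▷ X = X ◁ f ≫ (β_ E X).inv := by
    rw [Iso.inv_comp_eq, ← BraidedCategory.braiding_naturality_left_assoc, Iso.hom_inv_id,
      Category.comp_id]
  rw [Category.assoc, ← MonoidalCategory.whiskerLeft_comp, h1, MonoidalCategory.whiskerLeft_comp,
    reassoc_of% hv, ← MonoidalCategory.whiskerLeft_comp, Iso.hom_inv_id,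
    MonoidalCategory.whiskerLeft_id, Category.comp_id]

end exact

variable {K : T} [MonObj K]

theorem pr_un_un (A B : T) : pr (un K A) (un K B) = un K (A ⊗ B) := FM.unit_ten A B

theorem un_nat {A B : T} (f : A ⟶ B) : f ≫ un K B = un K A ≫ K ◁ f := FM.unit_naturality f

section swap

variable {Ea' Ea Sa Eb' Eb Sb : T} {fa : Ea' ⟶ Ea} {ga : Ea ⟶ Sa} {ha : Sa ⟶ Ea'⟦(1 : ℤ)⟧}
  (Da : Triangle.mk fa ga ha ∈ distTriang T) {fb : Eb' ⟶ Eb} {gb : Eb ⟶ Sb}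
  {hb : Sb ⟶ Eb'⟦(1 : ℤ)⟧} (Db : Triangle.mk fb gb hb ∈ distTriang T)
  {ya : Sa ⟶ K ⊗ Ea} (hya : ya ≫ K ◁ ga = un K Sa) {yb : Sb ⟶ K ⊗ Eb}
  (hyb : yb ≫ K ◁ gb = un K Sb)

include hyb in
theorem sec_comp : lext yb ≫ K ◁ gb = 𝟙 _ := by
  rw [← lext_comp, hyb]
  exact FM.bind_unit Sb

include hyb in
theorem sec_rst_comp (X : T) : lext (rst yb X) ≫ K ◁ (gb ▷ X) = 𝟙 _ := by
  rw [← lext_comp, ← rst_comp, hyb, rst_un]
  exact FM.bind_unit _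

include Da Db hyb in
/-- the kernel of `K_* (Eb ⊗ Ea) ⟶ K_* (Sb ⊗ Sa)` -/
theorem exists_lifts {A : T} (D : A ⟶ K ⊗ (Eb ⊗ Ea)) (hD : D ≫ K ◁ (gb ⊗ₘ ga) = 0) :
    ∃ (D₁ : A ⟶ K ⊗ (Eb ⊗ Ea')) (D₂ : A ⟶ K ⊗ (Eb' ⊗ Ea)),
      D = D₁ ≫ K ◁ (Eb ◁ fa) + D₂ ≫ K ◁ (fb ▷ Ea) := by
  obtain ⟨u, hu⟩ := lift_left Da K Sb (D ≫ K ◁ (gb ▷ Ea)) (by
    rw [Category.assoc, ← MonoidalCategory.whiskerLeft_comp, ← tensorHom_def]
    exact hD)
  obtain ⟨D₂, hD₂⟩ := lift_right Db K Ea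
    (D - (u ≫ lext (rst yb Ea')) ≫ K ◁ (Eb ◁ fa)) (by
      rw [Preadditive.sub_comp, sub_eq_zero]
      simp only [Category.assoc, ← MonoidalCategory.whiskerLeft_comp]
      rw [whisker_exchange, MonoidalCategory.whiskerLeft_comp, ← Category.assoc (lext _),
        sec_rst_comp hyb, Category.id_comp, hu])
  refine ⟨u ≫ lext (rst yb Ea'), D₂, ?_⟩
  rw [hD₂, add_sub_cancel]

include Da Db hya hyb in
/-- **The swap lemma.** -/
theorem swap_split : ∃ (D₁ : Sa ⊗ Sb ⟶ K ⊗ (Eb ⊗ Ea')) (D₂ : Sa ⊗ Sb ⟶ K ⊗ (Eb' ⊗ Ea)),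
    pr ya yb ≫ K ◁ (β_ Ea Eb).hom - (β_ Sa Sb).hom ≫ pr yb ya =
      D₁ ≫ K ◁ (Eb ◁ fa) + D₂ ≫ K ◁ (fb ▷ Ea) := by
  refine exists_lifts Da Db hyb _ ?_
  rw [Preadditive.sub_comp, sub_eq_zero]
  simp only [Category.assoc, ← MonoidalCategory.whiskerLeft_comp]
  rw [← BraidedCategory.braiding_naturality, MonoidalCategory.whiskerLeft_comp, ← pr_comp_assoc,
    ← pr_comp, hya, hyb, pr_un_un, pr_un_un, un_nat]

end swap

namespace Tower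

variable {n : ℕ} (t : Tower T n)

/-- the maps to the first stage -/
def j : (r : ℕ) → (t.E r ⟶ t.E 0)
  | 0 => 𝟙 _
  | r + 1 => t.f r ≫ j r

@[simp] theorem j_zero : t.j 0 = 𝟙 _ := rfl

theorem j_succ (r : ℕ) : t.j (r + 1) = t.f r ≫ t.j r := rfl

variable (K) in
/-- the stage `r` is split in `K`-homology -/
def Split (r : ℕ) : Prop := ∃ y : (𝟙_ T)⟦t.d r⟧ ⟶ K ⊗ t.E r, y ≫ K ◁ t.g r = un K _

/-- the letters of a family of split stages -/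
def letters {ι : Type} (r : ι → ℕ) (hr : ∀ i, r i < n)
    (y : ∀ i, (𝟙_ T)⟦t.d (r i)⟧ ⟶ K ⊗ t.E (r i)) (hy : ∀ i, y i ≫ K ◁ t.g (r i) = un K _) :
    Letters K ι (t.E 0) where
  E := t.E
  j := t.j
  f := t.f
  w r := (t.j_succ r).symm
  A i := (𝟙_ T)⟦t.d (r i)⟧
  r := r
  y := y
  swap a b := swap_split (t.dist (r a) (hr a)) (t.dist (r b) (hr b)) (hy a) (hy b)

end Tower

end Vale.Agent.P241.H169
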