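import Vale.Agent.P251.H.GenFC
import Vale.Agent.P251.M.EvenCell

/-!
# P241, block YK: finite towers of cells

`Tow X` : `X` has a finite filtration `X = E 0 ⟵ E 1 ⟵ ⋯ ⟵ E n = 0` with distinguished triangles
`E (r + 1) ⟶ E r ⟶ 𝟙⟦d r⟧ ⟶`. The class is closed under isomorphisms, shifts, extensions and tensor
products, and contains the suspension spectra of the finite cell spaces.
-/

open CategoryTheory MonoidalCategory Limits Pretriangulated ZeroObject
open Vale.Agent.P251.T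

universe v u

set_option linter.unusedSectionVars false

namespace Vale.Agent.P241.H169

variable {T : Type u} [Category.{v} T] [Preadditive T] [HasZeroObject T]
    [HasShift T ℤ] [∀ n : ℤ, (shiftFunctor T n).Additive] [Pretriangulated T]
    [MonoidalCategory T]

/-- `X` is built from finitely many spheres, one at a time; the new cell is the cofibre. -/
inductive Tow : T → Prop
  | zero {X : T} (h : IsZero X) : Tow X
  | cell {E' E : T} (d : ℤ) (f : E' ⟶ E) (g : E ⟶ (𝟙_ T)⟦d⟧) (h : (𝟙_ T)⟦d⟧ ⟶ E'⟦(1 : ℤ)⟧)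
      (D : Triangle.mk f g h ∈ distTriang T) (hE : Tow E') : Tow E

/-- A tower of cells of length `n`. -/
structure Tower (T : Type u) [Category.{v} T] [Preadditive T] [HasZeroObject T]
    [HasShift T ℤ] [∀ n : ℤ, (shiftFunctor T n).Additive] [Pretriangulated T]
    [MonoidalCategory T] (n : ℕ) where
  /-- the stages -/
  E : ℕ → T
  /-- the dimensions of the cells -/
  d : ℕ → ℤ
  /-- the maps between the stages -/
  f (r : ℕ) : E (r + 1) ⟶ E r
  /-- the maps to the cells -/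
  g (r : ℕ) : E r ⟶ (𝟙_ T)⟦d r⟧
  /-- the boundary maps -/
  h (r : ℕ) : (𝟙_ T)⟦d r⟧ ⟶ (E (r + 1))⟦(1 : ℤ)⟧
  dist (r : ℕ) (hr : r < n) : Triangle.mk (f r) (g r) (h r) ∈ distTriang T
  isZero (r : ℕ) (hr : n ≤ r) : IsZero (E r)

namespace Tower

/-- the tower without its first stage -/
def tail {n : ℕ} (t : Tower T (n + 1)) : Tower T n where
  E r := t.E (r + 1)
  d r := t.d (r + 1)
  f r := t.f (r + 1)
  g r := t.g (r + 1)
  h r := t.h (r + 1)
  dist r hr := t.dist (r + 1) (by omega)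
  isZero r hr := t.isZero (r + 1) (by omega)

/-- the constant tower of a zero object -/
def const {X : T} (hX : IsZero X) : Tower T 0 where
  E _ := X
  d _ := 0
  f _ := 0
  g _ := 0
  h _ := 0
  dist r hr := absurd hr (Nat.not_lt_zero r)
  isZero _ _ := hX

/-- one more cell -/
def cons {n : ℕ} (t : Tower T n) {X : T} (d : ℤ) (f : t.E 0 ⟶ X) (g : X ⟶ (𝟙_ T)⟦d⟧)
    (h : (𝟙_ T)⟦d⟧ ⟶ (t.E 0)⟦(1 : ℤ)⟧) (D : Triangle.mk f g h ∈ distTriang T) :
    Tower T (n + 1) where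
  E
    | 0 => X
    | r + 1 => t.E r
  d
    | 0 => d
    | r + 1 => t.d r
  f
    | 0 => f
    | r + 1 => t.f r
  g
    | 0 => g
    | r + 1 => t.g r
  h
    | 0 => h
    | r + 1 => t.h r
  dist
    | 0, _ => D
    | r + 1, hr => t.dist r (by omega)
  isZero
    | 0, hr => absurd hr (by omega)
    | r + 1, hr => t.isZero r (by omega)

/-- the stages of a tower -/
theorem tow {n : ℕ} (t : Tower T n) (r : ℕ) : Tow (t.E r) := by
  obtain hr | hr := le_or_gt n r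
  · exact .zero (t.isZero r hr)
  · obtain ⟨k, hk⟩ := Nat.exists_eq_add_of_lt hr
    induction k generalizing r with
    | zero =>
      exact .cell _ _ _ _ (t.dist r hr) (.zero (t.isZero (r + 1) (by omega)))
    | succ k ih =>
      exact .cell _ _ _ _ (t.dist r hr) (ih (r + 1) (by omega) (by omega))

end Tower

namespace Tow

variable {X Y : T}

/-- `Tow` as the existence of a tower -/
theorem exists_tower (h : Tow X) : ∃ (n : ℕ) (t : Tower T n), t.E 0 = X := by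
  induction h with
  | zero h => exact ⟨0, .const h, rfl⟩
  | cell d f g h D hE ih =>
    obtain ⟨n, t, rfl⟩ := ih
    exact ⟨n + 1, t.cons d f g h D, rfl⟩

/-- the unfolded form: `E (r + 1) ⟶ E r ⟶ 𝟙⟦d r⟧ ⟶`, `E 0 = X`, `E r = 0` for `r ≥ n` -/
theorem exists_chain (h : Tow X) : ∃ (n : ℕ) (E : ℕ → T) (d : ℕ → ℤ) (f : ∀ r, E (r + 1) ⟶ E r)
    (g : ∀ r, E r ⟶ (𝟙_ T)⟦d r⟧) (h : ∀ r, (𝟙_ T)⟦d r⟧ ⟶ (E (r + 1))⟦(1 : ℤ)⟧),
    E 0 = X ∧ (∀ r < n, Triangle.mk (f r) (g r) (h r) ∈ distTriang T) ∧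
      ∀ r, n ≤ r → IsZero (E r) := by
  obtain ⟨n, t, ht⟩ := h.exists_tower
  exact ⟨n, t.E, t.d, t.f, t.g, t.h, ht, t.dist, t.isZero⟩

theorem of_iso (h : Tow X) (e : X ≅ Y) : Tow Y := by
  cases h with
  | zero h => exact .zero (h.of_iso e.symm)
  | cell d f g h D hE =>
    rename_i E'
    refine .cell d (f ≫ e.hom) (e.inv ≫ g) h (isomorphic_distinguished _ D _
      (Triangle.isoMk _ _ (Iso.refl E') e.symm (Iso.refl ((𝟙_ T)⟦d⟧)) ?_ ?_ ?_)) hE
    · show (f ≫ e.hom) ≫ e.inv = 𝟙 E' ≫ f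
      simp
    · show (e.inv ≫ g) ≫ 𝟙 _ = e.inv ≫ g
      simp
    · show h ≫ (𝟙 E')⟦(1 : ℤ)⟧' = 𝟙 _ ≫ h
      simp

theorem congr (e : X ≅ Y) : Tow X ↔ Tow Y := ⟨fun h => h.of_iso e, fun h => h.of_iso e.symm⟩

theorem cell' (Δ : Triangle T) (hΔ : Δ ∈ distTriang T) (d : ℤ) (e : Δ.obj₃ ≅ (𝟙_ T)⟦d⟧)
    (h : Tow Δ.obj₁) : Tow Δ.obj₂ := by
  refine .cell d Δ.mor₁ (Δ.mor₂ ≫ e.hom) (e.inv ≫ Δ.mor₃) (isomorphic_distinguished _ hΔ _
    (Triangle.isoMk _ _ (Iso.refl Δ.obj₁) (Iso.refl Δ.obj₂) e.symm ?_ ?_ ?_)) h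
  · show Δ.mor₁ ≫ 𝟙 Δ.obj₂ = 𝟙 Δ.obj₁ ≫ Δ.mor₁
    simp
  · show (Δ.mor₂ ≫ e.hom) ≫ e.inv = 𝟙 Δ.obj₂ ≫ Δ.mor₂
    simp
  · show (e.inv ≫ Δ.mor₃) ≫ (𝟙 Δ.obj₁)⟦(1 : ℤ)⟧' = e.inv ≫ Δ.mor₃
    simp

theorem shift (h : Tow X) (n : ℤ) : Tow (X⟦n⟧) := by
  induction h with
  | zero h => exact .zero ((shiftFunctor T n).map_isZero h)
  | cell d f g h D hE ih =>
    exact cell' _ (Triangle.shift_distinguished _ D n) (d + n)
      ((shiftFunctorAdd T d n).symm.app (𝟙_ T)) ih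

theorem of_shift {n : ℤ} (h : Tow (X⟦n⟧)) : Tow X :=
  (h.shift (-n)).of_iso (shiftShiftNeg X n)

theorem shift_iff (n : ℤ) : Tow (X⟦n⟧) ↔ Tow X := ⟨of_shift, fun h => h.shift n⟩

theorem sphere (d : ℤ) : Tow ((𝟙_ T)⟦d⟧) :=
  cell' _ (contractible_distinguished₁ ((𝟙_ T)⟦d⟧)) d (Iso.refl _) (.zero (isZero_zero T))

theorem unit : Tow (𝟙_ T) := (sphere (0 : ℤ)).of_iso ((shiftFunctorZero T ℤ).app _)

section Ext

variable [IsTriangulated T]

theorem ext_mk {C : T} (hC : Tow C) : ∀ {A B : T} (a : A ⟶ B) (b : B ⟶ C) (c : C ⟶ A⟦(1 : ℤ)⟧),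
    Triangle.mk a b c ∈ distTriang T → Tow A → Tow B := by
  induction hC with
  | zero h =>
    intro A B a b c D hA
    have : IsIso a := (Triangle.isZero₃_iff_isIso₁ _ D).1 h
    exact hA.of_iso (asIso a)
  | @cell E' C d f g h D' hE ih =>
    intro A B a b c D hA
    obtain ⟨Z, v, w, DZ⟩ := distinguished_cocone_triangle (f ≫ c)
    -- `Z` is a shift of the fibre
    have hZ : Tow Z := by
      have h1 := inv_rot_of_distTriang _ (inv_rot_of_distTriang _ DZ)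
      have h2 : Tow (Z⟦(-1 : ℤ)⟧) := ih _ _ _ h1 ((hA.shift 1).shift (-1))
      exact h2.of_shift
    have h23 := rot_of_distTriang _ (rot_of_distTriang _ D)
    have o := (Triangulated.someOctahedron (u₁₂ := f) (u₂₃ := c) rfl D' h23 DZ).mem
    exact (cell' _ (rot_of_distTriang _ o) (d + 1) ((shiftFunctorAdd T d 1).symm.app (𝟙_ T))
      hZ).of_shift

theorem ext (Δ : Triangle T) (hΔ : Δ ∈ distTriang T) (h₁ : Tow Δ.obj₁) (h₃ : Tow Δ.obj₃) :
    Tow Δ.obj₂ := h₃.ext_mk Δ.mor₁ Δ.mor₂ Δ.mor₃ hΔ h₁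

theorem ext₃ (Δ : Triangle T) (hΔ : Δ ∈ distTriang T) (h₁ : Tow Δ.obj₁) (h₂ : Tow Δ.obj₂) :
    Tow Δ.obj₃ := ext _ (rot_of_distTriang _ hΔ) h₂ (h₁.shift 1)

theorem ext₁ (Δ : Triangle T) (hΔ : Δ ∈ distTriang T) (h₂ : Tow Δ.obj₂) (h₃ : Tow Δ.obj₃) :
    Tow Δ.obj₁ := ext _ (inv_rot_of_distTriang _ hΔ) (h₃.shift (-1)) h₂

theorem biprod [HasBinaryBiproduct X Y] (hX : Tow X) (hY : Tow Y) : Tow (X ⊞ Y) :=
  ext _ (binaryBiproductTriangle_distinguished X Y) hX hY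

/-- every extension closed class which contains the zero objects and the spheres -/
theorem of_evenCell {d : ℤ} (h : Vale.Agent.P251.M.EvenCell T d X) : Tow X := by
  induction h with
  | zero X h => exact .zero h
  | sphere k _ => exact sphere (2 * k)
  | ext Δ hΔ _ _ ih₁ ih₃ => exact ext Δ hΔ ih₁ ih₃

end Ext

/-- `Tow` is contained in every extension closed class with the zero objects and the spheres -/
theorem rec' {P : T → Prop} (h0 : ∀ X, IsZero X → P X) (hs : ∀ d : ℤ, P ((𝟙_ T)⟦d⟧))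
    (hext : ∀ Δ : Triangle T, Δ ∈ distTriang T → P Δ.obj₁ → P Δ.obj₃ → P Δ.obj₂) (h : Tow X) :
    P X := by
  induction h with
  | zero h => exact h0 _ h
  | cell d f g h D _ ih => exact hext _ D ih (hs d)

section Tensor

variable [IsTriangulated T] [SymmetricCategory T] [TensorTriangulated T]

theorem tensor (hX : Tow X) (hY : Tow Y) : Tow (X ⊗ Y) := by
  induction hY with
  | zero h =>
    refine .zero ?_
    rw [IsZero.iff_id_eq_zero, ← whiskerLeft_id, h.eq_of_src (𝟙 _) 0,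
      MonoidalPreadditive.whiskerLeft_zero]
  | cell d f g h D _ ih =>
    exact ext _ (TensorTriangulated.distinguished X _ D) ih
      ((hX.shift d).of_iso (Vale.Agent.P251.M.tensorUnitShiftIso X d).symm)

end Tensor

section Space

open Vale.Agent.P251.G Vale.Agent.P251.G.LC Vale.Agent.P251.I Vale.Agent.P251.H

variable [IsTriangulated T] [SymmetricCategory T] [TensorTriangulated T] (F : SpaceFunctor T)

theorem space (X : FCat) : Tow (F.S.obj X) := by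
  obtain ⟨X, hX⟩ := X
  induction hX with
  | empty => exact .zero (F.isZero (X := ⟨LC.of Empty, _⟩) (inferInstanceAs (IsEmpty Empty)))
  | sph m => exact (sphere (m : ℤ)).of_iso (Vale.Agent.P251.M.sphIso F m).symm
  | @hequiv X Y hX e ih =>
    obtain ⟨a, b, h1, h2⟩ := e
    have : IsIso (F.S.map (FCat.hom a : (⟨X, hX⟩ : FCat) ⟶ ⟨Y, hX.hequiv ⟨a, b, h1, h2⟩⟩)) :=
      F.isIso_map _ ⟨b, h1, h2⟩
    exact ih.of_iso (asIso (F.S.map (FCat.hom a : (⟨X, hX⟩ : FCat) ⟶ ⟨Y, _⟩)))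
  | @ext A B i hi hA hC ihA ihC =>
    have hB : FC B := FC.ext hi hA hC
    exact ext _ (F.cof_distinguished (FCat.hom i : (⟨A, hA⟩ : FCat) ⟶ ⟨B, hB⟩) hi) ihA ihC

end Space

end Tow

end Vale.Agent.P241.H169
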